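/-
R106/Flow/Main (helper3): `s_flow : S_FLOW`, `s_liou : S_LIOU`.
-/
import Crest.Agent.R106.Iface
import Crest.Agent.R106.Liou
import Crest.Agent.R106.U.Vla

set_option autoImplicit false
set_option linter.unusedSectionVars false
set_option linter.unusedVariables false

open Set Filter Topology MeasureTheory
open Crest.AnalysisR.VecCalc3 Crest.AnalysisR.PDE.RVM
open scoped ContDiff

noncomputable section

namespace Crest.Agent.R106

namespace Flow

variable {B : Type} [NormedAddCommGroup B] [NormedSpace ℝ B] [FiniteDimensional ℝ B]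

/-- uniqueness of trajectories on an open interval -/
theorem uniq_Ioo {V : ℝ × B → B} (hV : Differentiable ℝ V)
    (hK : ∀ T : ℝ, ∃ C : ℝ, ∀ z : ℝ × B, |z.1| ≤ T → ‖fderiv ℝ V z‖ ≤ C) {a b t : ℝ} {γ δ : ℝ → B}
    (ht : t ∈ Ioo a b) (hγ : ∀ s ∈ Ioo a b, HasDerivAt γ (V (s, γ s)) s)
    (hδ : ∀ s ∈ Ioo a b, HasDerivAt δ (V (s, δ s)) s) (e : γ t = δ t) : EqOn γ δ (Ioo a b) := by
  obtain ⟨C, hC⟩ := hK (max |a| |b|)
  refine ODE_solution_unique_of_mem_Ioo (v := fun t z => V (t, z)) (s := fun _ => univ)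
    (K := C.toNNReal) (fun r hr => ?_) ht (fun s hs => ⟨hγ s hs, trivial⟩)
    (fun s hs => ⟨hδ s hs, trivial⟩) e
  have hd : ∀ z, HasFDerivAt (fun z => V (r, z))
      (fderiv ℝ V (r, z) ∘L ContinuousLinearMap.inr ℝ ℝ B) z := fun z =>
    (hV (r, z)).hasFDerivAt.comp z (hasFDerivAt_prodMk_right r z)
  refine (lipschitzWith_of_nnnorm_fderiv_le (𝕜 := ℝ) (fun z => (hd z).differentiableAt)
    fun z => ?_).lipschitzOnWith
  have h1 : ‖fderiv ℝ V (r, z)‖ ≤ C := hC (r, z) (abs_le_max_abs_abs hr.1.le hr.2.le)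
  have h2 : ‖fderiv ℝ (fun z => V (r, z)) z‖ ≤ C := by
    rw [(hd z).fderiv]
    refine ContinuousLinearMap.opNorm_le_bound _ ((norm_nonneg _).trans h1) fun h => ?_
    simpa using (fderiv ℝ V (r, z)).le_of_opNorm_le h1 (0, h)
  simpa [← NNReal.coe_le_coe] using Or.inl h2

/-- a bounded smooth time change with bounded derivative, equal to the identity on `[-n, n]` -/
theorem exists_theta (n : ℕ) : ∃ θ : ℝ → ℝ, ContDiff ℝ ∞ θ ∧ (∀ t : ℝ, |t| ≤ n → θ t = t) ∧
    ∃ M : ℝ, ∀ t, |θ t| ≤ M ∧ |deriv θ t| ≤ M := by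
  let χ : ContDiffBump (0 : ℝ) := ⟨n + 1, n + 2, by positivity, by linarith⟩
  have h1 : ContDiff ℝ ∞ fun t : ℝ => χ t * t := χ.contDiff.mul contDiff_id
  have h2 : HasCompactSupport fun t : ℝ => χ t * t := χ.hasCompactSupport.mul_right
  obtain ⟨M1, hM1⟩ := h1.continuous.bounded_above_of_compact_support h2
  obtain ⟨M2, hM2⟩ := (h1.continuous_deriv (by simp)).bounded_above_of_compact_support h2.deriv
  refine ⟨_, h1, fun t ht => ?_, max M1 M2, fun t => ⟨(hM1 t).trans (le_max_left _ _),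
    (hM2 t).trans (le_max_right _ _)⟩⟩
  rw [χ.one_of_mem_closedBall (by simpa [χ] using ht.trans (by linarith)), one_mul]

/-- Two-parameter flow of a field whose derivative is bounded on time slabs: `X (s, t, z)` is the position at time `s`
of the trajectory through `z` at time `t`. -/
theorem exists_flow_slab {V : ℝ × B → B} (hV : ContDiff ℝ ∞ V)
    (hK : ∀ T : ℝ, ∃ C : ℝ, ∀ z : ℝ × B, |z.1| ≤ T → ‖fderiv ℝ V z‖ ≤ C) :
    ∃ X : ℝ × ℝ × B → B, ContDiff ℝ ∞ X ∧ (∀ t z, X (t, t, z) = z) ∧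
      (∀ s t z, HasDerivAt (fun r => X (r, t, z)) (V (s, X (s, t, z))) s) ∧
      (∀ s r t z, X (s, r, X (r, t, z)) = X (s, t, z)) := by
  have hVd : Differentiable ℝ V := hV.differentiable (by simp)
  have hn : ∀ n : ℕ, ∃ X : ℝ × ℝ × B → B, ContDiff ℝ ∞ X ∧ (∀ t z, X (t, t, z) = z) ∧
      ∀ (s t : ℝ) (z : B), |s| ≤ n → HasDerivAt (fun r => X (r, t, z)) (V (s, X (s, t, z))) s := fun n => by
    obtain ⟨θ, hθ, hid, M, hM⟩ := exists_theta n
    obtain ⟨C, hC⟩ := hK M
    have hW : ContDiff ℝ ∞ fun p : ℝ × B => V (θ p.1, p.2) :=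
      hV.comp ((hθ.comp contDiff_fst).prodMk contDiff_snd)
    have hWK : ∀ p, ‖fderiv ℝ (fun p : ℝ × B => V (θ p.1, p.2)) p‖ ≤ C * max M 1 := fun p => by
      have h1 : HasFDerivAt (fun p : ℝ × B => (θ p.1, p.2))
          ((deriv θ p.1 • ContinuousLinearMap.fst ℝ ℝ B).prod (ContinuousLinearMap.snd ℝ ℝ B)) p :=
        (HasDerivAt.comp_hasFDerivAt p (hθ.differentiable (by simp) p.1).hasDerivAt
          hasFDerivAt_fst).prodMk hasFDerivAt_snd
      have h2 := (hVd (θ p.1, p.2)).hasFDerivAt.comp p h1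
      have h3 := hC (θ p.1, p.2) (hM p.1).1
      have h0 : 0 ≤ C := (norm_nonneg _).trans h3
      rw [show (fun p : ℝ × B => V (θ p.1, p.2)) = V ∘ fun p : ℝ × B => (θ p.1, p.2) from rfl,
        h2.fderiv]
      refine ContinuousLinearMap.opNorm_le_bound _ (by positivity) fun h => ?_
      refine ((fderiv ℝ V (θ p.1, p.2)).le_of_opNorm_le h3 _).trans ?_
      rw [mul_assoc]
      refine mul_le_mul_of_nonneg_left ?_ h0
      have h4 := norm_fst_le h
      have h5 := norm_snd_le h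
      have h6 := (hM p.1).2
      have h7 := le_max_left M 1
      have h8 := le_max_right M 1
      have h9 := norm_nonneg h
      change max ‖deriv θ p.1 • h.1‖ ‖h.2‖ ≤ _
      rw [norm_smul]
      refine max_le (mul_le_mul (h6.trans h7) h4 (norm_nonneg _) (by linarith)) ?_
      nlinarith
    obtain ⟨X, h1, h2, h3, -⟩ := Liou.exists_flow hW hWK
    exact ⟨X, h1, h2, fun s t z hs => by simpa [hid s hs] using h3 s t z⟩
  choose Y hY h0 hd using hn
  have hag : ∀ (n m : ℕ) (s t : ℝ) (z : B), |s| < n → |t| < n → |s| < m → |t| < m →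
      Y n (s, t, z) = Y m (s, t, z) := fun n m s t z a b c d => by
    have hm : ∀ r : ℝ, |r| < n → |r| < m → r ∈ Ioo (-(min n m : ℝ)) (min n m : ℝ) := fun r a b =>
      abs_lt.1 (lt_min a b)
    exact uniq_Ioo hVd hK (γ := fun r => Y n (r, t, z)) (δ := fun r => Y m (r, t, z)) (hm t b d)
      (fun r hr => hd n r t z ((abs_lt.2 hr).le.trans (min_le_left _ _)))
      (fun r hr => hd m r t z ((abs_lt.2 hr).le.trans (min_le_right _ _)))
      ((h0 n t z).trans (h0 m t z).symm) (hm s a c)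
  let N : ℝ → ℝ → ℕ := fun s t => ⌈|s| + |t|⌉₊ + 1
  have hN : ∀ s t : ℝ, |s| < N s t ∧ |t| < N s t := fun s t => by
    have := Nat.le_ceil (|s| + |t|)
    have := abs_nonneg s
    have := abs_nonneg t
    simp only [N, Nat.cast_add, Nat.cast_one]
    constructor <;> linarith
  let X : ℝ × ℝ × B → B := fun q => Y (N q.1 q.2.1) q
  have hX : ∀ (n : ℕ) (s t : ℝ) (z : B), |s| < n → |t| < n → X (s, t, z) = Y n (s, t, z) :=
    fun n s t z a b => hag _ n s t z (hN s t).1 (hN s t).2 a b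
  have hev : ∀ q : ℝ × ℝ × B, X =ᶠ[𝓝 q] Y (N q.1 q.2.1) := fun q => by
    have h1 : ∀ᶠ p : ℝ × ℝ × B in 𝓝 q, |p.1| < N q.1 q.2.1 :=
      (isOpen_lt (by fun_prop) continuous_const).mem_nhds (hN q.1 q.2.1).1
    have h2 : ∀ᶠ p : ℝ × ℝ × B in 𝓝 q, |p.2.1| < N q.1 q.2.1 :=
      (isOpen_lt (by fun_prop) continuous_const).mem_nhds (hN q.1 q.2.1).2
    filter_upwards [h1, h2] with p a b using hX _ p.1 p.2.1 p.2.2 a b
  have hX0 : ∀ t z, X (t, t, z) = z := fun t z => h0 _ t z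
  have hXd : ∀ s t z, HasDerivAt (fun r => X (r, t, z)) (V (s, X (s, t, z))) s := fun s t z => by
    have hc : Continuous fun r : ℝ => (r, t, z) := by fun_prop
    exact (hd (N s t) s t z (hN s t).1.le).congr_of_eventuallyEq
      ((hc.tendsto s).eventually (hev (s, t, z)))
  refine ⟨X, contDiff_iff_contDiffAt.2 fun q => (hY _).contDiffAt.congr_of_eventuallyEq (hev q),
    hX0, hXd, fun s r t z => ?_⟩
  exact uniq_Ioo hVd hK (γ := fun s => X (s, r, X (r, t, z))) (δ := fun s => X (s, t, z))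
    (abs_lt.1 (hN s r).2) (fun s _ => hXd s r _) (fun s _ => hXd s t z) (hX0 r _) (abs_lt.1 (hN s r).1)

/-- the trace on phase space in coordinates -/
theorem trace_P6 (L : P6 →L[ℝ] P6) : LinearMap.trace ℝ P6 (L : P6 →ₗ[ℝ] P6) =
    ∑ i : Fin 3, (L (EuclideanSpace.single i 1, 0)).1 i + ∑ i : Fin 3, (L (0, EuclideanSpace.single i 1)).2 i := by
  let b := (EuclideanSpace.basisFun (Fin 3) ℝ).toBasis
  rw [LinearMap.trace_eq_matrix_trace ℝ (b.prod b), Matrix.trace, Fintype.sum_sum_type]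
  simp [LinearMap.toMatrix_apply, b]

/-- a field `(a v, F (x, v))` with `div_v F = 0` is divergence free -/
theorem trace_eq_zero {a : R3 → R3} {F : P6 → R3} {z : P6} (ha : DifferentiableAt ℝ a z.2)
    (hF : DifferentiableAt ℝ F z) (hdiv : ∑ i : Fin 3, pderiv (fun w => F (z.1, w) i) i z.2 = 0) :
    LinearMap.trace ℝ P6 (fderiv ℝ (fun p : P6 => ((a p.2, F p) : P6)) z : P6 →ₗ[ℝ] P6) = 0 := by
  have h1 : HasFDerivAt (fun p : P6 => ((a p.2, F p) : P6))
      ((fderiv ℝ a z.2 ∘L ContinuousLinearMap.snd ℝ R3 R3).prod (fderiv ℝ F z)) z :=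
    (ha.hasFDerivAt.comp z hasFDerivAt_snd).prodMk hF.hasFDerivAt
  rw [h1.fderiv, trace_P6, ← hdiv]
  have h2 : ∀ i : Fin 3, pderiv (fun w => F (z.1, w) i) i z.2
      = (fderiv ℝ F z (0, EuclideanSpace.single i 1)) i := fun i => by
    have h3 := (EuclideanSpace.proj i : R3 →L[ℝ] ℝ).hasFDerivAt.comp z.2
      (HasFDerivAt.comp (g := F) (f := fun w => (z.1, w)) z.2 hF.hasFDerivAt
        (hasFDerivAt_prodMk_right z.1 z.2))
    have h4 : HasFDerivAt (fun w => F (z.1, w) i) _ z.2 := h3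
    rw [pderiv, h4.fderiv]
    rfl
  simp [h2]

theorem contDiff_force {E B : ST → R3} (hE : ContDiff ℝ 1 E) (hB : ContDiff ℝ 1 B) (t : ℝ) :
    ContDiff ℝ 1 fun p : P6 => force E B (t, p.1) p.2 :=
  (hE.comp (contDiff_const.prodMk contDiff_fst)).add (contDiff_euclidean.2 fun i =>
    U.vlab_cross (U.contDiff_relVel.comp contDiff_snd) (hB.comp (contDiff_const.prodMk contDiff_fst)) i)

/-- the characteristic field is divergence free -/
theorem trace_vf {E B : ST → R3} (hE : ContDiff ℝ 1 E) (hB : ContDiff ℝ 1 B) (t : ℝ) (z : P6) :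
    LinearMap.trace ℝ P6 (fderiv ℝ (fun p : P6 => vf E B (t, p)) z : P6 →ₗ[ℝ] P6) = 0 := by
  refine trace_eq_zero (a := relVel) (F := fun p : P6 => force E B (t, p.1) p.2)
    (U.contDiff_relVel.differentiable one_ne_zero _)
    ((contDiff_force hE hB t).differentiable one_ne_zero _) ?_
  rw [← U.div_cross_relVel (B (t, z.1)) z.2]
  refine Finset.sum_congr rfl fun i _ => ?_
  simp only [pderiv, force, PiLp.add_apply, fderiv_const_add]

end Flow

theorem s_flow : S_FLOW := by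
  intro f₀ b hf hb hK
  obtain ⟨X, h1, h2, h3, h4⟩ := Flow.exists_flow_slab hb hK
  exact ⟨{
    Z := fun t z => X (t, 0, z)
    f := fun p => f₀ (X (0, p))
    smooth := hf.comp (h1.comp (contDiff_const.prodMk contDiff_id))
    smoothZ := h1.comp (contDiff_fst.prodMk (contDiff_const.prodMk contDiff_snd))
    Z0 := h2 0
    ode := fun z t => h3 t 0 z
    bij := fun t => Function.bijective_iff_has_inverse.2 ⟨fun z => X (0, t, z),
      fun z => by simp [h4, h2], fun z => by simp [h4, h2]⟩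
    trans := fun t z => by simp [h4, h2] }⟩

theorem s_liou : S_LIOU := by
  intro f₀ E B hE hB L t ht
  have : (volume : Measure P6).IsAddHaarMeasure := Measure.prod.instIsAddHaarMeasure _ _
  have hE1 : ContDiff ℝ 1 E := hE.of_le (by simp)
  have hB1 : ContDiff ℝ 1 B := hB.of_le (by simp)
  exact Liou.measurePreserving_flow volume (V := vf E B) (Φ := fun z : ℝ × P6 => L.Z z.1 z.2)
    (contDiff_infty.1 L.smoothZ 2) (t₀ := 0) (t₁ := t) L.Z0
    (fun r _ => ((U.contDiff_relVel.comp contDiff_snd).prodMk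
      (Flow.contDiff_force hE1 hB1 r)).differentiable one_ne_zero)
    (fun r _ y => L.ode y r) (fun r _ z => Flow.trace_vf hE1 hB1 r z) (L.bij t)

end Crest.Agent.R106
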